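import Vale.Agent.P201.S.PC

/-!
P201 D1: common part of the two folds (helper567): removal of an edge `e` and identification of a
vertex `w` with a vertex `b`.
-/

namespace Vale.Agent.P201.S.Fold

open Finset

/-- inclusion of darts -/
def iota {E : Type} (e : E) (y : {x : E // x ≠ e} × Bool) : E × Bool := ((y.1 : E), y.2)

theorem iota_inj {E : Type} (e : E) : Function.Injective (iota e) := by
  rintro ⟨⟨a, ha⟩, b⟩ ⟨⟨c, hc⟩, d⟩ h
  simp only [iota, Prod.mk.injEq] at h
  obtain ⟨rfl, rfl⟩ := h
  rfl

theorem iota_rv {E : Type} (e : E) (y : {x : E // x ≠ e} × Bool) : iota e (rv y) = rv (iota e y) := rfl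

theorem exists_lift {E : Type} (e : E) (l : List (E × Bool)) (h : ∀ x ∈ l, x.1 ≠ e) :
    ∃ l' : List ({x : E // x ≠ e} × Bool), l'.map (iota e) = l := by
  induction l with
  | nil => exact ⟨[], rfl⟩
  | cons a l ih =>
    obtain ⟨l', h'⟩ := ih (fun x hx => h x (List.mem_cons_of_mem _ hx))
    exact ⟨(⟨a.1, h a (List.mem_cons_self)⟩, a.2) :: l', by simp [h', iota]⟩

theorem card_ne {V : Type} [Fintype V] [DecidableEq V] (w : V) :
    Fintype.card {v : V // v ≠ w} + 1 = Fintype.card V := by
  have h1 : Fintype.card {v : V // v ≠ w} = Fintype.card V - 1 := by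
    simp [Fintype.card_subtype_compl]
  have h2 : 0 < Fintype.card V := Fintype.card_pos_iff.2 ⟨w⟩
  omega

variable {S : Sys} {σ : Equiv.Perm S.C}

theorem build (K : SqK σ) (P : K.GPot) (e : K.E) (w b : K.V) (hwb : b ≠ w)
    (ψ : K.V → K.V) (hψw : ψ w = b) (hψ : ∀ v, v ≠ w → ψ v = v)
    (bd : Option K.F → List (K.E × Bool))
    (hπ : ∀ x : K.E × Bool, x.1 ≠ e → P.π (ψ (K.org x)) = P.π (K.org x))
    (hne : ∀ f, ∀ x ∈ bd f, x.1 ≠ e)
    (hchain : ∀ f, (bd f).IsChain (fun a b => ψ (K.org b) = ψ (K.org (rv a))))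
    (hclosed : ∀ f, ∀ a ∈ (bd f).getLast?, ∀ b ∈ (bd f).head?, ψ (K.org b) = ψ (K.org (rv a)))
    (honce : ∀ x : K.E × Bool, x.1 ≠ e → ∑ f, (bd f).count x = 1)
    (hnn : ∀ f, bd (some f) ≠ [])
    (hconn : ∀ x : K.E × Bool, x.1 = e → ψ (K.org x) = ψ (K.org (rv x)) ∨
      ∃ y : K.E × Bool, y.1 ≠ e ∧ ψ (K.org y) = ψ (K.org x) ∧ ψ (K.org (rv y)) = ψ (K.org (rv x)))
    (hdconn : ∀ f g : Option K.F, Relation.ReflTransGen (fun a b => ∃ d, d ∈ bd a ∧ rv d ∈ bd b) f g)
    (hlab : ∀ f, (bd (some f)).map (fun x => (K.lab x.1, x.2)) =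
      (K.bd (some f)).map (fun x => (K.lab x.1, x.2)))
    (horg : ∀ f, (bd (some f)).head?.map (fun x => P.π (K.org x)) =
      (K.bd (some f)).head?.map (fun x => P.π (K.org x)))
    (hbase : ∀ d ∈ (bd none).head?, P.π (K.org d) = 1) :
    ∃ (K' : SqK σ) (P' : K'.GPot), Fintype.card K'.F = Fintype.card K.F ∧
      K'.chn P' univ = K.chn P univ ∧
      K'.toPC.wd none = (bd none).map (fun x => (K.lab x.1, x.2)) := by
  classical
  choose L hL using fun f => exists_lift e (bd f) (hne f)
  have hψn : ∀ v, ψ v ≠ w := by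
    intro v
    by_cases h : v = w
    · rw [h, hψw]; exact hwb
    · rw [hψ v h]; exact h
  -- connectedness
  have hc : ∀ u v : K.V, Relation.ReflTransGen (fun a b : {v : K.V // v ≠ w} =>
      ∃ d : {x : K.E // x ≠ e} × Bool, (⟨ψ (K.org (iota e d)), hψn _⟩ : {v : K.V // v ≠ w}) = a ∧
        (⟨ψ (K.org (iota e (rv d))), hψn _⟩ : {v : K.V // v ≠ w}) = b)
      ⟨ψ u, hψn u⟩ ⟨ψ v, hψn v⟩ := by
    intro u v
    have h1 := K.conn u v
    induction h1 with
    | refl => exact Relation.ReflTransGen.refl
    | tail h2 h3 ih =>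
      obtain ⟨d, rfl, rfl⟩ := h3
      by_cases hd : d.1 = e
      · rcases hconn d hd with h4 | ⟨y, hy, h4, h5⟩
        · have : (⟨ψ (K.org (rv d)), hψn _⟩ : {v : K.V // v ≠ w}) = ⟨ψ (K.org d), hψn _⟩ :=
            Subtype.ext h4.symm
          rw [this]
          exact ih
        · refine ih.tail ⟨(⟨y.1, hy⟩, y.2), Subtype.ext ?_, Subtype.ext ?_⟩
          · exact h4
          · exact h5
      · exact ih.tail ⟨(⟨d.1, hd⟩, d.2), rfl, rfl⟩
  let K' : SqK σ :=
    { V := {v : K.V // v ≠ w}
      E := {x : K.E // x ≠ e}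
      F := K.F
      org := fun y => ⟨ψ (K.org (iota e y)), hψn _⟩
      lab := fun y => K.lab y.1
      bd := L
      chain := by
        intro f
        have h1 := hchain f
        rw [← hL f, List.isChain_map] at h1
        exact h1.imp (fun a b h => Subtype.ext h)
      closed := by
        intro f a ha b hb
        apply Subtype.ext
        refine hclosed f (iota e a) ?_ (iota e b) ?_
        · rw [← hL f, List.getLast?_map]
          simp only [Option.mem_def, Option.map_eq_some_iff] at ha ⊢
          exact ⟨a, ha, rfl⟩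
        · rw [← hL f, List.head?_map]
          simp only [Option.mem_def, Option.map_eq_some_iff] at hb ⊢
          exact ⟨b, hb, rfl⟩
      once := by
        intro d
        rw [← honce (iota e d) d.1.2]
        refine Finset.sum_congr rfl (fun f _ => ?_)
        rw [← hL f, List.count_map_of_injective _ _ (iota_inj e)]
        congr!
      ne := by
        intro f h
        apply hnn f
        rw [← hL (some f), h]
        rfl
      conn := by
        intro u v
        have h1 := hc u.1 v.1
        have hu : (⟨ψ u.1, hψn u.1⟩ : {v : K.V // v ≠ w}) = u := Subtype.ext (hψ u.1 u.2)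
        have hv : (⟨ψ v.1, hψn v.1⟩ : {v : K.V // v ≠ w}) = v := Subtype.ext (hψ v.1 v.2)
        rw [hu, hv] at h1
        exact h1
      dconn := by
        intro f g
        refine Relation.ReflTransGen.mono ?_ _ _ (hdconn f g)
        rintro a b ⟨d, h1, h2⟩
        rw [← hL a, List.mem_map] at h1
        obtain ⟨y, hy, rfl⟩ := h1
        refine ⟨y, hy, ?_⟩
        rw [← hL b, ← iota_rv, List.mem_map] at h2
        obtain ⟨z, hz, hz2⟩ := h2
        rw [← iota_inj e hz2]
        exact hz
      euler := by
        have h1 := K.euler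
        have h2 := card_ne w
        have h3 := card_ne e
        omega
      q := K.q
      sq := by
        intro f
        rw [← K.sq f, ← hlab f, ← hL (some f), List.map_map]
        rfl }
  have hP : ∀ y : {x : K.E // x ≠ e} × Bool, P.π (ψ (K.org (iota e y))) = P.π (K.org (iota e y)) :=
    fun y => hπ _ y.1.2
  let P' : K'.GPot :=
    { π := fun v => P.π v.1
      st := by
        intro y
        change P.π (ψ (K.org (iota e y))) * _ = P.π (ψ (K.org (iota e (rv y))))
        rw [hP y, hP (rv y), iota_rv]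
        exact P.st (iota e y)
      base := by
        intro d hd
        change P.π (ψ (K.org (iota e d))) = 1
        rw [hP d]
        refine hbase _ ?_
        rw [← hL none, List.head?_map]
        simp only [Option.mem_def, Option.map_eq_some_iff] at hd ⊢
        exact ⟨d, hd, rfl⟩ }
  refine ⟨K', P', rfl, ?_, ?_⟩
  · unfold SqK.chn
    refine Finset.sum_congr rfl (fun f _ => ?_)
    have h1 := horg f
    rw [← hL (some f), List.head?_map] at h1
    change ∑ d ∈ ((L (some f)).head?).toFinset, pch σ (P.π (ψ (K.org (iota e d)))) (K.q f) = _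
    rcases h2 : (L (some f)).head? with _ | y
    · rw [h2] at h1
      rcases h3 : (K.bd (some f)).head? with _ | z
      · simp
      · rw [h3] at h1; simp at h1
    · rw [h2] at h1
      rcases h3 : (K.bd (some f)).head? with _ | z
      · rw [h3] at h1; simp at h1
      · rw [h3] at h1
        simp only [Option.map_some, Option.some.injEq] at h1
        simp only [Option.toFinset_some, Finset.sum_singleton]
        rw [hP y, h1]
  · change (L none).map _ = _
    rw [← hL none, List.map_map]
    rfl

end Vale.Agent.P201.S.Fold
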